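import Vale.Agent.H2.TorusB

open Matrix Topology MeasureTheory NumberField Polynomial

namespace Vale.Agent.H2

theorem no_int_root_sq_sub_two (k : ℤ) : (X ^ 2 - Polynomial.C 2 : ℤ[X]).eval k ≠ 0 := by
  simp only [eval_sub, eval_pow, eval_X, eval_C]
  intro h
  have h2 : k ^ 2 = 2 := by linarith
  have hk : |k| ≤ 1 ∨ 2 ≤ |k| := by omega
  rcases hk with hk | hk
  · have : k ^ 2 ≤ 1 := by
      have := abs_le.mp hk
      nlinarith
    omega
  · have : 4 ≤ k ^ 2 := by
      have h3 : |k| ^ 2 = k ^ 2 := sq_abs k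
      nlinarith
    omega

/-- A complete counterexample sequence in degree four. -/
theorem torus_counterexample_four :
    ∃ (F : ℕ → IntermediateField ℚ ℝ) (_ : ∀ i, NumberField (F i)),
      (∀ i, IsTotallyReal (F i)) ∧ (∀ i, Module.finrank ℚ (F i) = 4) ∧
      Filter.Tendsto (fun i => |discr (F i)|) Filter.atTop Filter.atTop ∧
      ∃ f : LatticeSpace 4 → ℝ, Continuous f ∧ HasCompactSupport f ∧
        (∀ [MeasurableSpace (LatticeSpace 4)] [BorelSpace (LatticeSpace 4)]
            (m : Measure (LatticeSpace 4)) [IsProbabilityMeasure m],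
            (∀ h : Matrix.SpecialLinearGroup (Fin 4) ℝ, Measure.map (rightMul 4 h) m = m) →
              0 < ∫ x, f x ∂m) ∧
        (∀ (i : ℕ) (σ : Fin 4 → (F i) →+* ℝ) [MeasurableSpace (LatticeSpace 4)]
            [BorelSpace (LatticeSpace 4)] (μ : Measure (LatticeSpace 4)),
            μ {x | x ∉ packetSet σ} = 0 → ∫ x, f x ∂μ = 0) := by
  obtain ⟨C, f, -, -, hfc, hfs, -, -, -, ha, hb, hc⟩ :=
    torus_subfield_obstruction 4 (by norm_num) (X ^ 2 - Polynomial.C 2 : ℤ[X])
      (X_pow_sub_C_ne_zero (by norm_num) _) no_int_root_sq_sub_two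
  refine ⟨fun i => bq (oddPrime i), fun i => numberField_bq (oddPrime i),
    fun i => isTotallyReal_bq (oddPrime i),
    fun i => finrank_bq (oddPrime i) (oddPrime_prime i) (oddPrime_ne_two i),
    tendsto_abs_discr_bq, f, hfc, hfs, ?_, ?_⟩
  · intro _ _ m _ hinv
    exact hc m (measure_pos_of_invariant m hinv)
  · intro i σ _ _ μ hμ
    have hsub : packetSet σ ⊆ C := by
      refine packetSet_subset_of_sqrt_two
        (⟨Real.sqrt (2 : ℕ), sqrt_two_mem_bq (oddPrime i)⟩ : bq (oddPrime i)) ?_ C ha σ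
      apply Subtype.ext
      have h2 : Real.sqrt ((2 : ℕ) : ℝ) ^ 2 = 2 := by
        rw [Real.sq_sqrt (Nat.cast_nonneg _)]
        norm_num
      exact h2
    refine hb μ (measure_mono_null ?_ hμ)
    intro x hx hxp
    exact hx (hsub hxp)

end Vale.Agent.H2
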